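import Vale.Agent.P261Z.Ev

/-!
# P261: finite algebras over complete noetherian rings are complete
-/

namespace Vale.Agent.P261Z.KS

variable {R L M : Type*} [CommRing R] [CommRing L] [AddCommGroup M] [Module R M]

theorem complete_fin [IsNoetherianRing R] (I : Ideal R) [IsAdicComplete I R] [Module.Finite R M] :
    IsAdicComplete I M where
  toIsHausdorff := .of_le_jacobson I M (IsAdicComplete.le_jacobson_bot I)
  toIsPrecomplete := AdicCompletion.of_surjective_iff.1 fun x => by
    obtain ⟨t, rfl⟩ := AdicCompletion.ofTensorProduct_surjective_of_finite I M x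
    induction t with
    | zero => exact ⟨0, by simp⟩
    | tmul r m =>
      obtain ⟨r, rfl⟩ := AdicCompletion.of_surjective I R r
      exact ⟨r • m, by
        rw [AdicCompletion.ofTensorProduct_tmul, map_smul]
        exact (algebraMap_smul (AdicCompletion I R) r _).symm⟩
    | add a b ha hb =>
      obtain ⟨a, ha⟩ := ha
      obtain ⟨b, hb⟩ := hb
      exact ⟨a + b, by rw [map_add, map_add, ha, hb]⟩

theorem complete_of_le {I J : Ideal R} [h : IsAdicComplete I M] (h1 : I ≤ J) {N : ℕ}
    (h2 : J ^ N ≤ I) : IsAdicComplete J M := by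
  have h3 : ∀ n, (J ^ ((N + 1) * n) • ⊤ : Submodule R M) ≤ I ^ n • ⊤ := fun n =>
    Submodule.smul_mono_left (pow_mul J _ n ▸
      Ideal.pow_right_mono ((Ideal.pow_le_pow_right N.le_succ).trans h2) n)
  refine { haus' := fun x hx => h.haus x fun n => (hx _).mono (h3 n), prec' := fun f hf => ?_ }
  obtain ⟨a, ha⟩ := h.prec (f := fun n => f ((N + 1) * n)) fun hmn =>
    (hf (Nat.mul_le_mul_left _ hmn)).mono (h3 _)
  exact ⟨a, fun n => (hf (Nat.le_mul_of_pos_left n N.succ_pos)).trans
    ((ha n).mono (Submodule.smul_mono_left (Ideal.pow_right_mono h1 n)))⟩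

theorem complete_map [IsNoetherianRing R] (I : Ideal R) [IsAdicComplete I R] [Algebra R L]
    [Module.Finite R L] : IsAdicComplete (I.map (algebraMap R L)) L :=
  have := complete_fin (M := L) I
  { toIsHausdorff := IsHausdorff.map_algebraMap_iff.2 inferInstance
    toIsPrecomplete := IsPrecomplete.map_algebraMap_iff.2 inferInstance }

theorem complete_radical [IsNoetherianRing R] (I : Ideal R) [IsAdicComplete I R] [Algebra R L]
    [Module.Finite R L] : IsAdicComplete (I.map (algebraMap R L)).radical L := by
  have := complete_map (L := L) I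
  have := IsNoetherianRing.of_finite R L
  obtain ⟨N, hN⟩ := (I.map (algebraMap R L)).exists_radical_pow_le_of_fg
    (IsNoetherian.noetherian _)
  exact complete_of_le Ideal.le_radical hN

end Vale.Agent.P261Z.KS
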