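import Mathlib

/-!
# P261, block D4: lines with an invariant generator after inverting `v`
-/

namespace Vale.Agent.P261Z.KS

variable {G R L : Type*} [CommRing R] [CommRing L]

/-- the line with cocycle `l` has the invariant generator `a / b` over `L[1/v]` -/
def Gen (ι : R →+* L) (Φ : G → L →+* L) (v : R) (l : G → R) : Prop :=
  ∃ a b : L, (∃ N : ℕ, a * b ∣ ι v ^ N) ∧ ∀ g, a * Φ g b = ι (l g) * Φ g a * b

variable {ι : R →+* L} {Φ : G → L →+* L} {v : R} {l l' : G → R}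

theorem Gen.one : Gen ι Φ v fun _ => 1 := ⟨1, 1, ⟨0, by simp⟩, fun g => by simp⟩

theorem Gen.mul (h : Gen ι Φ v l) (h' : Gen ι Φ v l') : Gen ι Φ v fun g => l g * l' g := by
  obtain ⟨a, b, ⟨N, hN⟩, h⟩ := h
  obtain ⟨a', b', ⟨N', hN'⟩, h'⟩ := h'
  refine ⟨a * a', b * b', ⟨N + N', ?_⟩, fun g => ?_⟩
  · rw [mul_mul_mul_comm, pow_add]
    exact mul_dvd_mul hN hN'
  · rw [map_mul, map_mul, map_mul, mul_mul_mul_comm, h, h']
    ring

theorem Gen.inv (h : Gen ι Φ v l) (e : ∀ g, l g * l' g = 1) : Gen ι Φ v l' := by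
  obtain ⟨a, b, ⟨N, hN⟩, h⟩ := h
  refine ⟨b, a, ⟨N, mul_comm a b ▸ hN⟩, fun g => ?_⟩
  have h1 := congrArg ι (e g)
  rw [map_mul, map_one] at h1
  linear_combination (-ι (l' g)) * h g - Φ g a * b * h1

theorem Gen.of_mul (h : Gen ι Φ v fun g => l g * l' g) (h' : Gen ι Φ v l)
    (e : ∀ g, IsUnit (l g)) : Gen ι Φ v l' := by
  choose u hu using fun g => (e g).exists_right_inv
  have := (h'.inv hu).mul h
  rwa [show (fun g => u g * (l g * l' g)) = l' from funext fun g => by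
    linear_combination l' g * hu g] at this

theorem Gen.pow (h : Gen ι Φ v l) (n : ℕ) : Gen ι Φ v fun g => l g ^ n := by
  induction n with
  | zero => simpa using Gen.one
  | succ n ih => simpa only [pow_succ] using ih.mul h

theorem Gen.zpow {u : G → Rˣ} (h : Gen ι Φ v fun g => u g) (n : ℤ) :
    Gen ι Φ v fun g => (u g ^ n : Rˣ) := by
  obtain ⟨m, rfl | rfl⟩ := n.eq_nat_or_neg
  · simpa using h.pow m
  · exact (h.pow m).inv fun g => by
      rw [← Units.val_pow_eq_pow_val, ← Units.val_mul, zpow_neg, zpow_natCast, mul_inv_cancel,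
        Units.val_one]

theorem Gen.of_root {f : L} {N : ℕ} (hf : f ∣ ι v ^ N) (h : ∀ g, Φ g f = ι (l g) * f) :
    Gen ι Φ v l := ⟨1, f, ⟨N, by rwa [one_mul]⟩, fun g => by simp [h]⟩

theorem Gen.map {L' : Type*} [CommRing L'] (π : L →+* L') {Φ' : G → L' →+* L'}
    (e : ∀ g x, Φ' g (π x) = π (Φ g x)) (h : Gen ι Φ v l) : Gen (π.comp ι) Φ' v l := by
  obtain ⟨a, b, ⟨N, hN⟩, h⟩ := h
  refine ⟨π a, π b, ⟨N, by simpa using map_dvd π hN⟩, fun g => ?_⟩
  simpa [e] using congrArg π (h g)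

end Vale.Agent.P261Z.KS
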