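import Vale.Agent.P261Z.Ev
import Vale.Agent.P251.F.Height
import Vale.Agent.P251.F.Compare

/-!
# P261, block N5: derivations of coefficients, Weierstrass division, roots
-/

open MvPowerSeries Finsupp

namespace Vale.Agent.P261Z.KS

open Vale.Agent.P217 Vale.Agent.P251.F Ev

variable {σ τ k R L : Type*} [CommRing k] [CommRing R] [Algebra k R] [CommRing L]

/-- a derivation applied to the coefficients -/
noncomputable def cd (δ : Derivation k R R) :
    Derivation ℤ (MvPowerSeries σ R) (MvPowerSeries σ R) :=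
  Derivation.mk' (AddMonoidHom.toIntLinearMap
    { toFun := fun f => (fun n => δ (coeff n f) : MvPowerSeries σ R)
      map_zero' := MvPowerSeries.ext fun n => map_zero δ
      map_add' := fun f g => MvPowerSeries.ext fun n => map_add δ _ _ }) fun f g => by
    classical
    ext n
    change δ (coeff n (f * g)) = _
    rw [smul_eq_mul, smul_eq_mul, mul_comm g, map_add, coeff_mul, coeff_mul, coeff_mul, map_sum,
      ← Finset.sum_add_distrib]
    refine Finset.sum_congr rfl fun x _ => ?_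
    rw [Derivation.leibniz, smul_eq_mul, smul_eq_mul, mul_comm (coeff x.2 g)]
    rfl

variable (δ : Derivation k R R)

theorem coeff_cd (f : MvPowerSeries σ R) (n : σ →₀ ℕ) : coeff n (cd δ f) = δ (coeff n f) := rfl

theorem cd_C (r : R) : cd δ (C r : MvPowerSeries σ R) = C (δ r) := by
  classical
  ext n
  rw [coeff_cd, coeff_C, coeff_C]
  split_ifs
  exacts [rfl, map_zero δ]

theorem cd_subst {a : τ → MvPowerSeries σ R} (ha : HasSubst a) (h : ∀ s, cd δ (a s) = 0)
    (g : MvPowerSeries τ R) : cd δ (subst a g) = subst a (cd δ g) := by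
  ext n
  rw [coeff_cd, coeff_subst ha, coeff_subst ha]
  refine (AddMonoidHom.map_finsum (δ : R →ₗ[k] R).toAddMonoidHom
    (coeff_subst_finite ha g n)).trans (finsum_congr fun d => ?_)
  have h1 : cd δ (d.prod fun s e => a s ^ e) = 0 :=
    Finset.prod_induction _ (fun x => cd δ x = 0) (fun x y hx hy => by simp [hx, hy])
      (Derivation.map_one_eq_zero _) fun s _ => by simp [h]
  change δ (_ * _) = _
  rw [Derivation.leibniz, ← coeff_cd δ (d.prod _), h1, map_zero, smul_zero, zero_add, coeff_cd,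
    smul_eq_mul, smul_eq_mul, mul_comm]

theorem cd_X (i : σ) : cd δ (X i : MvPowerSeries σ R) = 0 := by
  classical
  ext n
  rw [coeff_cd, coeff_X]
  split_ifs <;> simp

theorem cd_frob {p h : ℕ} [Fact p.Prime] [CharP R p] (hh : h ≠ 0) (f : MvPowerSeries σ R) :
    cd δ (map (iterateFrobenius R p h) f) = 0 := by
  ext n
  rw [coeff_cd, coeff_map, iterateFrobenius_def, Derivation.leibniz_pow, nsmul_eq_mul,
    Nat.cast_pow, CharP.cast_eq_zero, zero_pow hh, zero_mul, map_zero]

theorem fg_decomp (F : FormalGroup R) [F.IsComm] :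
    ∃ G, F.toPowerSeries = X 0 + X 1 + X 0 * X 1 * G := by
  have h0 : ∀ i, coeff (e2 i 0) (F.toPowerSeries - X 0 - X 1) = 0 := fun i => by
    rw [map_sub, map_sub, coeff_e2_zero, coeff_X, coeff_X,
      show single 0 1 = e2 1 0 by simp [e2], show single 1 1 = e2 0 1 by simp [e2]]
    simp [e2_inj]
  have h1 : ∀ i, coeff (e2 0 i) (F.toPowerSeries - X 0 - X 1) = 0 := fun i => by
    rw [map_sub, map_sub, coeff_comm, coeff_e2_zero, coeff_X, coeff_X,
      show single 0 1 = e2 1 0 by simp [e2], show single 1 1 = e2 0 1 by simp [e2]]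
    simp [e2_inj]
  obtain ⟨g, hg⟩ : X 0 ∣ F.toPowerSeries - X 0 - X 1 :=
    X_dvd_iff.2 fun m hm => by rw [← e2_eta m, hm, h1]
  obtain ⟨G, hG⟩ : X 1 ∣ g := X_dvd_iff.2 fun m hm => by
    have := h0 (1 + m 0)
    rw [hg, show e2 (1 + m 0) 0 = single 0 1 + m by
      conv_rhs => rw [← e2_eta m, hm]
      simp [e2], X, coeff_add_monomial_mul, one_mul] at this
    exact this
  exact ⟨G, by rw [mul_assoc, ← hG, ← hg]; ring⟩

theorem ser_decomp {h : PowerSeries R} (h0 : PowerSeries.constantCoeff h = 0) :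
    ∃ G, h = PowerSeries.X * G ∧ PowerSeries.constantCoeff G = PowerSeries.coeff 1 h := by
  obtain ⟨G, rfl⟩ := PowerSeries.X_dvd_iff.2 h0
  exact ⟨G, rfl, by rw [PowerSeries.coeff_succ_X_mul, PowerSeries.coeff_zero_eq_constantCoeff]⟩

theorem unit_of (J : Ideal L) [IsAdicComplete J L] {x : L} (h : IsUnit (Ideal.Quotient.mk J x)) :
    IsUnit x :=
  have := isLocalHom_of_le_jacobson_bot J (IsAdicComplete.le_jacobson_bot J)
  IsUnit.of_map _ x h

theorem wdiv (m : Ideal R) [IsAdicComplete m R] {ψ : PowerSeries R} {N : ℕ}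
    (h1 : ∀ i < N, PowerSeries.coeff i ψ ∈ m) (h2 : IsUnit (PowerSeries.coeff N ψ))
    (f : PowerSeries R) : ∃ (q : PowerSeries R) (r : Polynomial R), r.degree < N ∧
      f = ψ * q + r ∧ ∀ i < N, PowerSeries.coeff i f - r.coeff i ∈ m := by
  rcases eq_or_ne m ⊤ with rfl | hm
  · have := ‹IsAdicComplete ⊤ R›.toIsHausdorff.subsingleton
    exact ⟨0, 0, by simp, PowerSeries.ext fun _ => Subsingleton.elim _ _, fun _ _ => trivial⟩
  have h3 : (ψ.map (Ideal.Quotient.mk m)).order.toNat = N := by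
    rw [PowerSeries.order_eq_nat.2 ⟨fun e => hm (m.eq_top_of_isUnit_mem
      (Ideal.Quotient.eq_zero_iff_mem.1 e) h2), fun i hi =>
        Ideal.Quotient.eq_zero_iff_mem.2 (h1 i hi)⟩, ENat.toNat_natCast]
  have H : ψ.IsWeierstrassDivisorAt m := by rwa [PowerSeries.IsWeierstrassDivisorAt, h3]
  have h4 := H.isWeierstrassDivisionAt_div_mod f
  exact ⟨_, _, h3 ▸ h4.1, h4.2, fun i hi => by simpa using h4.coeff_f_sub_r_mem (h3 ▸ hi)⟩

open Polynomial hiding X C in
theorem prod_dvd {ι : Type*} (y : ι → L) (hy : ∀ a b, a ≠ b → y a - y b ∈ nonZeroDivisors L)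
    (s : Finset ι) : ∀ W : Polynomial L, (∀ a ∈ s, W.eval (y a) = 0) →
      ∏ a ∈ s, (Polynomial.X - Polynomial.C (y a)) ∣ W := by
  classical
  induction s using Finset.induction_on with
  | empty => simp
  | insert a s ha ih =>
    intro W hW
    obtain ⟨W', rfl⟩ := dvd_iff_isRoot.2 (hW a (Finset.mem_insert_self a s))
    rw [Finset.prod_insert ha]
    refine mul_dvd_mul_left _ (ih W' fun b hb => ?_)
    have := hW b (Finset.mem_insert_of_mem hb)
    rw [eval_mul, eval_sub, eval_X, eval_C] at this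
    exact (mem_nonZeroDivisors_iff_left.1 (hy b a fun e => ha (e ▸ hb))) _ this

open Polynomial hiding X C in
theorem root (J : Ideal L) [IsAdicComplete J L] {n : ℕ} (hn : IsUnit (n : L)) (h0 : n ≠ 0) {x : L}
    (hx : x - 1 ∈ J) : ∃ r, r ^ n = x ∧ r - 1 ∈ J := by
  obtain ⟨r, h1, h2⟩ := HenselianRing.is_henselian (I := J) (Polynomial.X ^ n - Polynomial.C x)
    (monic_X_pow_sub_C x h0) 1 (by simpa using J.neg_mem hx)
    (by simpa [derivative_X_pow] using hn.map (Ideal.Quotient.mk J))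
  exact ⟨r, by simpa [sub_eq_zero] using h1, h2⟩

theorem root_unique (J : Ideal L) [IsAdicComplete J L] {n : ℕ} (hn : IsUnit (n : L)) (h0 : n ≠ 0)
    {x z : L} (hx : x ^ n = 1) (hz : z ^ n = 1) (h : x - z ∈ J) : x = z := by
  have h1 := (Commute.all x z).geom_sum₂_mul n
  rw [hx, hz, sub_self] at h1
  refine sub_eq_zero.1 ((unit_of J ?_).mul_right_eq_zero.1 h1)
  rw [map_sum, Finset.sum_congr rfl fun i hi => show _ = Ideal.Quotient.mk J (z ^ (n - 1)) by
    rw [map_mul, map_pow, Ideal.Quotient.eq.2 h, ← map_pow, ← map_mul, ← pow_add,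
      Nat.add_sub_cancel' (Nat.le_sub_one_of_lt (Finset.mem_range.1 hi))],
    Finset.sum_const, Finset.card_range, nsmul_eq_mul, ← map_natCast (Ideal.Quotient.mk J)]
  exact (hn.map _).mul (((IsUnit.of_pow_eq_one hz h0).pow _).map _)

end Vale.Agent.P261Z.KS
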