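import Vale.Agent.P261Z.KS.A

/-!
# P261, block N5: the Kodaira-Spencer determinant
-/

open MvPowerSeries

namespace Vale.Agent.P261Z.KS

open Vale.Agent.P217 Vale.Agent.P251.F Ev

variable {k R L V : Type*} [CommRing k] [CommRing R] [Algebra k R] [CommRing L] [AddCommGroup V]

/-- a group of points of `F'` in the kernel of `ψ` -/
structure Pts (J : Ideal L) [IsAdicComplete J L] (ι : R →+* L) (F' : FormalGroup R)
    (ψ : PowerSeries R) (y : V → L) : Prop where
  mem : ∀ a, y a ∈ J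
  add : ∀ a b, y (a + b) = ev J ι ![y a, y b] F'.toPowerSeries
  ker : ∀ a, ev1 J ι (y a) ψ = 0
  dvd : ∀ a, a ≠ 0 → ∃ N : ℕ, y a ∣ ι (PowerSeries.coeff 1 ψ) ^ N

variable {J : Ideal L} [IsAdicComplete J L] {ι : R →+* L} {F F' : FormalGroup R} [F.IsComm]
  [F'.IsComm] {ψ : PowerSeries R} {y : V → L}

theorem unit_one_add {x : L} (hx : x ∈ J) : IsUnit (1 + x) :=
  unit_of J (by rw [map_add, Ideal.Quotient.eq_zero_iff_mem.2 hx, add_zero, map_one]; simp)

namespace Pts

variable (P : Pts J ι F' ψ y)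
include P

omit [F'.IsComm] in
theorem mem2 (a b : V) : ∀ i, ![y a, y b] i ∈ J := Fin.forall_fin_two.2 ⟨P.mem a, P.mem b⟩

theorem add' (a b : V) : ∃ g, y (a + b) = y a + y b + y a * y b * g := by
  obtain ⟨G, hG⟩ := fg_decomp F'
  exact ⟨_, by rw [P.add, hG, map_add, map_add, map_mul, map_mul, ev_X ι (P.mem2 a b),
    ev_X ι (P.mem2 a b)]; rfl⟩

theorem zero : y 0 = 0 := by
  obtain ⟨g, h⟩ := P.add' 0 0
  rw [add_zero] at h
  exact (unit_one_add (J.mul_mem_right g (P.mem 0))).mul_left_eq_zero.1 (by linear_combination -h)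

theorem sub_dvd {a b : V} (h : a ≠ b) :
    ∃ N : ℕ, y a - y b ∣ ι (PowerSeries.coeff 1 ψ) ^ N := by
  obtain ⟨g, h1⟩ := P.add' (a - b) b
  obtain ⟨N, h2⟩ := P.dvd _ (sub_ne_zero.2 h)
  rw [sub_add_cancel] at h1
  rw [show y a - y b = y (a - b) * (1 + y b * g) by linear_combination h1]
  exact ⟨N, (unit_one_add (J.mul_mem_right g (P.mem b))).mul_right_dvd.2 h2⟩

theorem nsmul (a : V) (n : ℕ) : ∃ u, y (n • a) = y a * u ∧ u - n ∈ J := by
  induction n with
  | zero => exact ⟨0, by rw [zero_nsmul, P.zero, mul_zero], by simp⟩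
  | succ n ih =>
    obtain ⟨u, h1, h2⟩ := ih
    obtain ⟨g, h3⟩ := P.add' (n • a) a
    refine ⟨u + 1 + y (n • a) * g, by rw [succ_nsmul, h3]; linear_combination h1, ?_⟩
    rw [show u + 1 + y (n • a) * g - (n + 1 : ℕ) = u - n + y (n • a) * g by push_cast; ring]
    exact add_mem h2 (J.mul_mem_right g (P.mem _))

omit [F'.IsComm] in
theorem eta_add (hom : IsHom F' F ψ) (δ : Derivation k R R) (hδ : cd δ F'.toPowerSeries = 0)
    (a b : V) : ev1 J ι (y (a + b)) (cd δ ψ) =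
      ev1 J ι (y a) (cd δ ψ) + ev1 J ι (y b) (cd δ ψ) := by
  obtain ⟨G, hG⟩ := fg_decomp F
  have hX : ∀ i : Fin 2, constantCoeff (X i : MvPowerSeries (Fin 2) R) = 0 := by simp
  have hs := HT_hasSubst_pair (HT_constantCoeff_psubst (hX 0) hom.1)
    (HT_constantCoeff_psubst (hX 1) hom.1)
  have e : ∀ i : Fin 2, ∀ f : PowerSeries R, ev J ι ![y a, y b]
      (PowerSeries.subst (X i : MvPowerSeries (Fin 2) R) f) = ev1 J ι (![y a, y b] i) f :=
    fun i f => by rw [ev_subst1 ι (P.mem2 a b) (hX i), ev_X ι (P.mem2 a b)]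
  have d : ∀ i : Fin 2, cd δ (PowerSeries.subst (X i : MvPowerSeries (Fin 2) R) ψ) =
      PowerSeries.subst (X i : MvPowerSeries (Fin 2) R) (cd δ ψ : PowerSeries R) := fun i =>
    cd_subst δ (HT_psubst_of_zero (hX i)).const (fun _ => cd_X δ i) ψ
  have h1 := congrArg (fun f => ev J ι ![y a, y b] (cd δ f)) hom.2
  rw [hG, subst_add hs, subst_add hs, subst_mul hs, subst_mul hs, subst_X hs, subst_X hs] at h1
  simp only [Matrix.cons_val_zero, Matrix.cons_val_one, map_add, Derivation.leibniz, smul_eq_mul,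
    map_mul, d, e, P.ker, zero_mul, mul_zero, add_zero] at h1
  rw [← h1, P.add, ← ev_subst1 ι (P.mem2 a b) F'.zero_constantCoeff]
  exact congrArg _ (cd_subst δ (HT_psubst_of_zero F'.zero_constantCoeff).const (fun _ => hδ) ψ).symm

end Pts

open Polynomial hiding X C in
/-- **the Kodaira-Spencer determinant divides a power of `v`** -/
theorem ks_unit {p c : ℕ} [Fact p.Prime] {y : (Fin c → ZMod p) → L} (P : Pts J ι F' ψ y)
    (hom : IsHom F' F ψ) (D : Fin c → Derivation k R R) (hD : ∀ j, cd (D j) F'.toPowerSeries = 0)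
    (m : Ideal R) [IsAdicComplete m R] (h1 : ∀ i < p ^ c, PowerSeries.coeff i ψ ∈ m)
    (h2 : IsUnit (PowerSeries.coeff (p ^ c) ψ))
    (h3 : IsUnit (Matrix.of fun i j : Fin c => D j (PowerSeries.coeff (p ^ (i : ℕ)) ψ)).det) :
    ∃ N : ℕ, (Matrix.of fun i j : Fin c => ev1 J ι (y (Pi.single i 1)) (cd (D j) ψ)).det ∣
      ι (PowerSeries.coeff 1 ψ) ^ N := by
  choose q r r1 r2 r3 using fun j => wdiv m h1 h2 (cd (D j) ψ)
  have h4 : IsUnit (Matrix.of fun i j : Fin c => (r j).coeff (p ^ (i : ℕ))).det := by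
    refine unit_of m ?_
    have := h3.map (Ideal.Quotient.mk m)
    rw [RingHom.map_det] at this ⊢
    refine (congrArg (fun M => IsUnit (Matrix.det M)) (Matrix.ext fun i j => ?_)).mp this
    exact Ideal.Quotient.eq.2 (r3 j _ (Nat.pow_lt_pow_right (Fact.out : p.Prime).one_lt i.2))
  have h5 : ∀ j a, ev1 J ι (y a) (cd (D j) ψ) = (r j).eval₂ ι (y a) := fun j a => by
    rw [r2 j, map_add, map_mul, P.ker, zero_mul, zero_add, ev1_coe ι (P.mem a)]
  refine Exists.imp (fun N => Ideal.mem_span_singleton.1) (?_ : _ ∈ Ideal.radical _)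
  rw [Ideal.radical_eq_sInf, Ideal.mem_sInf]
  rintro I ⟨hI, hp⟩
  by_contra hv
  set π := Ideal.Quotient.mk I
  have h6 := Ideal.Quotient.eq_zero_iff_mem.2 ((Ideal.span_singleton_le_iff_mem _).1 hI)
  rw [RingHom.map_det] at h6
  obtain ⟨w, hw, h7⟩ := Matrix.exists_mulVec_eq_zero_iff.2 h6
  let T : (Fin c → ZMod p) →+ L ⧸ I :=
    AddMonoidHom.mk' (fun a => ∑ j, π (ev1 J ι (y a) (cd (D j) ψ)) * w j) fun a b => by
      simp only [P.eta_add hom _ (hD _), map_add, add_mul, Finset.sum_add_distrib]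
  have h8 : T = 0 := AddMonoidHom.functions_ext _ _ _ fun i x => by
    have e : T (Pi.single i 1) = 0 := congrFun h7 i
    rw [show Pi.single i x = x.val • (Pi.single i 1 : Fin c → ZMod p) by
      rw [← Pi.single_smul, nsmul_one, ZMod.natCast_zmod_val], map_nsmul, e, smul_zero]
    rfl
  have h9 : ∑ j, (r j).map (π.comp ι) * Polynomial.C (w j) = 0 := by
    refine eq_zero_of_degree_lt_of_eval_index_eq_zero Finset.univ (v := fun a => π (y a))
      (fun a _ b _ e => by_contra fun h => ?_) ?_ fun a _ => ?_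
    · obtain ⟨N, hN⟩ := P.sub_dvd h
      exact hv (hp.mem_of_pow_mem N (I.mem_of_dvd hN (Ideal.Quotient.eq.1 e)))
    · rw [Finset.card_univ, Fintype.card_fun, ZMod.card, Fintype.card_fin]
      refine (degree_sum_le _ _).trans_lt ((Finset.sup_lt_iff (WithBot.bot_lt_coe _)).2
        fun j _ => ?_)
      rw [mul_comm, ← Polynomial.smul_eq_C_mul]
      exact ((degree_smul_le _ _).trans (degree_map_le)).trans_lt (r1 j)
    · refine Eq.trans ?_ (DFunLike.congr_fun h8 a)
      rw [eval_finsetSum]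
      refine Finset.sum_congr rfl fun j _ => ?_
      rw [eval_mul, eval_C, h5, eval_map, hom_eval₂]
  have h10 := (h4.map (π.comp ι)).ne_zero
  rw [RingHom.map_det] at h10
  refine hw (Matrix.eq_zero_of_mulVec_eq_zero h10 (funext fun i => ?_))
  have := congrArg (Polynomial.coeff · (p ^ (i : ℕ))) h9
  simpa [Matrix.mulVec, dotProduct] using this

/-- **equivariance** -/
theorem ks_eqv {n : Type*} [Fintype n] {φ : R →+* R} {Φ : L →+* L} (hΦ : Φ.comp ι = ι.comp φ)
    {h h' : PowerSeries R} (h0 : PowerSeries.constantCoeff h = 0)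
    (h0' : PowerSeries.constantCoeff h' = 0) (ψ0 : PowerSeries.constantCoeff ψ = 0)
    (e : (ψ.subst h' : PowerSeries R) = h.subst (ψ.map φ)) (D : n → Derivation k R R)
    (hD : ∀ j, cd (D j) h' = 0) (Jac : Matrix n n R)
    (hJ : ∀ r j, D j (φ r) = ∑ i, φ (D i r) * Jac i j) {x : L} (hx : x ∈ J) (hx' : Φ x ∈ J)
    (h1 : ev1 J ι x ψ = 0) (h2 : x = ev1 J ι (Φ x) h') (j : n) :
    ev1 J ι x (cd (D j) ψ) =
      ι (PowerSeries.coeff 1 h) * ∑ i, Φ (ev1 J ι x (cd (D i) ψ)) * ι (Jac i j) := by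
  obtain ⟨G, rfl, hG⟩ := ser_decomp h0
  have h3 : ∀ f, ev1 J ι (Φ x) (PowerSeries.map φ f) = Φ (ev1 J ι x f) := fun f => by
    rw [ev1_map ι φ hx', comp_ev1 ι Φ hx hx', hΦ]
  have b0 : PowerSeries.constantCoeff (ψ.map φ) = 0 := by
    rw [← PowerSeries.coeff_zero_eq_constantCoeff_apply, PowerSeries.coeff_map,
      PowerSeries.coeff_zero_eq_constantCoeff_apply, ψ0, map_zero]
  have hs := HT_psubst_of_zero b0
  have h4 : (cd (D j) (ψ.map φ) : PowerSeries R) =
      ∑ i, PowerSeries.map φ (cd (D i) ψ) * PowerSeries.C (Jac i j) := by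
    ext l
    simp only [map_sum, PowerSeries.coeff_mul_C, PowerSeries.coeff_map]
    exact hJ _ j
  have h5 := congrArg (fun f : PowerSeries R => ev1 J ι (Φ x) (cd (D j) f)) e
  rw [PowerSeries.subst_mul hs, PowerSeries.subst_X hs] at h5
  simp only [Derivation.leibniz, smul_eq_mul] at h5
  rw [map_add, map_mul, map_mul, h3, h1, map_zero, zero_mul, zero_add, h4, ev1_subst1 ι hx' b0, h3,
    h1, map_zero, ev1_zero, hG] at h5
  simp only [map_sum, map_mul, h3, ev1_C] at h5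
  rw [← h5, h2, ← ev1_subst1 ι hx' h0', ← h2]
  exact congrArg _ (cd_subst (D j) (HT_psubst_of_zero h0').const (fun _ => hD j) ψ).symm

end Vale.Agent.P261Z.KS
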