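import Vale.Agent.P261Z.KS.B

/-!
# P261, block D4: the Moore product and the norm character
-/

open scoped LinearAlgebra.Projectivization

namespace Vale.Agent.P261Z.KS

open Vale.Agent.P217 Vale.Agent.P251.F Ev

variable {R L V : Type*} [CommRing R] [CommRing L] [AddCommGroup V]
  {J : Ideal L} [IsAdicComplete J L] {ι : R →+* L} {F' : FormalGroup R} [F'.IsComm]
  {ψ : PowerSeries R} {y : V → L}

theorem reg_of_dvd {v x : L} (hv : v ∈ nonZeroDivisors L) {N : ℕ} (h : x ∣ v ^ N) :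
    x ∈ nonZeroDivisors L := by
  obtain ⟨z, hz⟩ := h
  exact (mul_mem_nonZeroDivisors.1 (hz ▸ pow_mem hv N)).1

open Polynomial in
theorem Pts.prod_eq [Fintype V] [DecidableEq V] (P : Pts J ι F' ψ y) (m : Ideal R)
    [IsAdicComplete m R] (h0 : PowerSeries.constantCoeff ψ = 0)
    (h1 : ∀ i < Fintype.card V, PowerSeries.coeff i ψ ∈ m)
    (h2 : PowerSeries.coeff (Fintype.card V) ψ - 1 ∈ m)
    (hv : ι (PowerSeries.coeff 1 ψ) ∈ nonZeroDivisors L) :
    ∃ q : R, q - 1 ∈ m ∧ ∏ a ∈ Finset.univ.erase 0, -y a = ι (PowerSeries.coeff 1 ψ) * ι q := by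
  have h4 := Ideal.Quotient.eq.2 h2
  obtain ⟨q, r, r1, r2, -⟩ := wdiv m h1 (unit_of m (by rw [h4]; simp))
    (PowerSeries.X ^ Fintype.card V)
  have e : ((X ^ Fintype.card V - r : R[X]) : PowerSeries R) = ψ * q := by
    rw [coe_sub, coe_pow, coe_X, r2, add_sub_cancel_right]
  refine ⟨PowerSeries.constantCoeff q, ?_, ?_⟩
  · have h6 := congrArg (fun f => Ideal.Quotient.mk m (PowerSeries.coeff (Fintype.card V) f)) e
    rw [← Ideal.Quotient.eq]
    simp only [coeff_coe, coeff_sub, coeff_X_pow_self, coeff_eq_zero_of_degree_lt r1, sub_zero,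
      PowerSeries.coeff_mul, map_sum, map_mul] at h6
    rw [h6, Finset.sum_eq_single (Fintype.card V, 0), h4, map_one, one_mul,
      PowerSeries.coeff_zero_eq_constantCoeff]
    · intro x hx hx'
      have := Finset.HasAntidiagonal.mem_antidiagonal.1 hx
      rw [Ideal.Quotient.eq_zero_iff_mem.2 (h1 _ (lt_of_le_of_ne (by omega) fun e =>
        hx' (Prod.ext e (by omega)))), zero_mul]
    · simp
  nontriviality L
  have h5 := eq_of_monic_of_dvd_of_natDegree_le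
    (monic_prod_of_monic Finset.univ (fun a => X - C (y a)) fun a _ => monic_X_sub_C _)
    ((monic_X_pow_sub r1).map ι)
    (prod_dvd y (fun a b h => (P.sub_dvd h).elim fun N hN => reg_of_dvd hv hN) _ _ fun a _ => by
      rw [eval_map, ← ev1_coe ι (P.mem a), e, map_mul, P.ker, zero_mul])
    (by
      rw [natDegree_prod_of_monic _ _ fun a _ => monic_X_sub_C _]
      refine natDegree_map_le.trans ((natDegree_sub_le_of_le (natDegree_X_pow_le _)
        (natDegree_le_iff_degree_le.2 r1.le)).trans ?_)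
      simp)
  have h6 := congrArg (coeff · 1) h5
  rw [← Finset.mul_prod_erase _ _ (Finset.mem_univ 0), P.zero, C_0, sub_zero, coeff_map,
    ← coeff_coe, e, PowerSeries.coeff_one_mul, h0, mul_zero, add_zero, map_mul,
    coeff_X_mul _ 0, coeff_zero_prod] at h6
  simpa using h6.symm

/-- representatives of the lines -/
theorem reps (K V : Type*) [Field K] [AddCommGroup V] [Module K V] :
    Function.Bijective fun x : ℙ K V × Kˣ =>
      (⟨x.2 • x.1.rep, smul_ne_zero x.2.ne_zero x.1.rep_nonzero⟩ : {v : V // v ≠ 0}) := by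
  refine ⟨fun x x' e => ?_, fun ⟨v, hv⟩ => ?_⟩
  · have e : x.2 • x.1.rep = x'.2 • x'.1.rep := congrArg Subtype.val e
    have h : x.1 = x'.1 := by
      rw [← x.1.mk_rep, ← x'.1.mk_rep, Projectivization.mk_eq_mk_iff]
      exact ⟨x.2⁻¹ * x'.2, by rw [mul_smul, inv_smul_eq_iff]; exact e.symm⟩
    refine Prod.ext h (Units.ext (smul_left_injective K x.1.rep_nonzero ?_))
    rw [← h] at e
    exact e
  · obtain ⟨a, ha⟩ := Projectivization.exists_smul_eq_mk_rep K v hv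
    exact ⟨(.mk K v hv, a⁻¹), Subtype.ext (inv_smul_eq_iff.2 ha.symm)⟩

/-- **the generator for the norm character** -/
theorem Pts.norm {p c : ℕ} [hp : Fact p.Prime] {y : (Fin c → ZMod p) → L} (P : Pts J ι F' ψ y)
    (hL : (p : L) = 0) (m : Ideal R) [IsAdicComplete m R] (hm : ∀ r ∈ m, ι r ∈ J)
    (h0 : PowerSeries.constantCoeff ψ = 0) (h1 : ∀ i < p ^ c, PowerSeries.coeff i ψ ∈ m)
    (h2 : PowerSeries.coeff (p ^ c) ψ - 1 ∈ m)
    (hv : ι (PowerSeries.coeff 1 ψ) ∈ nonZeroDivisors L) {f : L} {q : ℕ} (hq : ∃ h, q = p ^ h)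
    (hf : f ^ (q - 1) = ι (PowerSeries.coeff 1 ψ)) :
    ∃ a b : L, (∃ N : ℕ, a * b ∣ ι (PowerSeries.coeff 1 ψ) ^ N) ∧
      ∀ (Φ : L →+* L) (t ν : L) (n : ℕ), (∀ x ∈ J, Φ x ∈ J) →
        (∀ x, ∃ u, y x = Φ (y x) * u ∧ u - t ^ q ∈ J) → Φ f = t * f → ν ^ (p - 1) = 1 →
        n * (p - 1) + 1 = q * p ^ c → ν - t ^ n ∈ J → a * Φ b = ν * Φ a * b := by
  classical
  have hc : Fintype.card (Fin c → ZMod p) = p ^ c := by simp
  obtain ⟨q₀, e1, e2⟩ := P.prod_eq m h0 (hc ▸ h1) (hc ▸ h2) hv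
  have := Fintype.ofFinite (ℙ (ZMod p) (Fin c → ZMod p))
  have p1 : p - 1 ≠ 0 := Nat.sub_ne_zero_of_lt hp.out.one_lt
  have pu : IsUnit ((p - 1 : ℕ) : L) := by
    rw [Nat.cast_sub hp.out.one_le, hL]
    simp
  obtain ⟨e, he⟩ : p - 1 ∣ q - 1 := by
    obtain ⟨h, rfl⟩ := hq
    simpa using Nat.sub_dvd_pow_sub_pow p 1 h
  have hb := reps (ZMod p) (Fin c → ZMod p)
  have e3 := Fintype.card_of_bijective hb
  rw [Fintype.card_prod, ZMod.card_units, Fintype.card_subtype_compl, hc,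
    Fintype.card_subtype_eq] at e3
  set π := Ideal.Quotient.mk J
  choose u u1 u2 using fun x : ℙ (ZMod p) (Fin c → ZMod p) × (ZMod p)ˣ =>
    P.nsmul x.1.rep (x.2 : ZMod p).val
  obtain ⟨n', hn'⟩ := (IsUnit.prod_univ_iff.2 fun x : ℙ (ZMod p) (Fin c → ZMod p) × (ZMod p)ˣ =>
    (isCoprime_zero_right.1 (hL ▸ (ZMod.val_coe_unit_coprime x.2).cast :
      IsCoprime (((x.2 : ZMod p).val : ℕ) : L) 0)).neg).exists_right_inv
  have e4 : π ((∏ x, -u x) * n') = 1 := by
    rw [← map_one π, ← hn', map_mul, map_mul, map_prod, map_prod]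
    exact congrArg (· * π n') (Finset.prod_congr rfl fun x _ => by
      rw [map_neg, map_neg, Ideal.Quotient.eq.2 (u2 x)])
  obtain ⟨w, hw⟩ := (unit_of J (e4 ▸ isUnit_one)).exists_right_inv
  have e5 : π w = 1 := by simpa only [map_mul π _ w, e4, one_mul, map_one] using congrArg π hw
  obtain ⟨r, r1, r2⟩ := root J pu p1 (x := ι q₀ * w) (Ideal.Quotient.eq.1 (by
    rw [map_mul, e5, mul_one, Ideal.Quotient.eq, ← map_one ι, ← map_sub]
    exact hm _ e1))
  set M := ∏ l : ℙ (ZMod p) (Fin c → ZMod p), y l.rep with hM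
  set n₀ := ∏ x : ℙ (ZMod p) (Fin c → ZMod p) × (ZMod p)ˣ, -(((x.2 : ZMod p).val : ℕ) : L)
  have e6 : M ^ (p - 1) * ∏ x, -u x = ι (PowerSeries.coeff 1 ψ) * ι q₀ := by
    rw [← e2, Finset.prod_subtype (p := fun a => a ≠ 0) (Finset.univ.erase 0) (by simp),
      ← hb.prod_comp, hM,
      ← Finset.prod_pow, Fintype.prod_prod_type, Fintype.prod_prod_type, ← Finset.prod_mul_distrib]
    refine Finset.prod_congr rfl fun l _ => ?_
    rw [← ZMod.card_units p, ← Finset.card_univ, ← Finset.prod_const, ← Finset.prod_mul_distrib]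
    refine Finset.prod_congr rfl fun x _ => ?_
    rw [mul_neg, ← u1 (l, x), ← Nat.cast_smul_eq_nsmul (ZMod p), ZMod.natCast_zmod_val]
    rfl
  have e7 : M ^ (p - 1) * n₀ = (f ^ e * r) ^ (p - 1) := by
    rw [mul_pow, r1, ← pow_mul, mul_comm e, ← he, hf, ← mul_assoc, ← e6]
    linear_combination (-M ^ (p - 1) * n₀) * hw + (M ^ (p - 1) * (∏ x, -u x) * w) * hn'
  have ru : IsUnit r := unit_of J (by rw [Ideal.Quotient.eq.2 r2]; simp)
  have d1 : f ^ e * r ∣ ι (PowerSeries.coeff 1 ψ) ^ 1 := by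
    rw [ru.mul_right_dvd, pow_one, ← hf, he]
    exact pow_dvd_pow f (Nat.le_mul_of_pos_left e (Nat.pos_of_ne_zero p1))
  have d2 : M ∣ ι (PowerSeries.coeff 1 ψ) ^ (p - 1) :=
    ((dvd_pow_self M p1).mul_right n₀).trans (e7 ▸ pow_dvd_pow_of_dvd (pow_one (ι _) ▸ d1) _)
  refine ⟨M, f ^ e * r, ⟨p - 1 + 1, pow_add (ι _) _ _ ▸ mul_dvd_mul d2 d1⟩,
    fun Φ t ν n hΦ hy hΦf hν hn hν' => ?_⟩
  choose z z1 z2 using hy
  obtain ⟨r', hr'⟩ := ru.exists_right_inv
  have e8 : M = Φ M * ∏ l : ℙ (ZMod p) (Fin c → ZMod p), z l.rep := by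
    rw [hM, map_prod, ← Finset.prod_mul_distrib]
    exact Finset.prod_congr rfl fun l _ => z1 _
  set Z := ∏ l : ℙ (ZMod p) (Fin c → ZMod p), z l.rep with hZ
  have e9 : M * Φ (f ^ e * r) = Z * t ^ e * Φ r * r' * (Φ M * (f ^ e * r)) := by
    rw [map_mul, map_pow, hΦf, mul_pow]
    linear_combination (t ^ e * f ^ e * Φ r) * e8 - (Z * t ^ e * Φ r * Φ M * f ^ e) * hr'
  have e10 : Φ n₀ = n₀ := by simp only [n₀, map_prod, map_neg, map_natCast]
  have e11 := congrArg Φ e7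
  rw [map_mul, map_pow, map_pow, e10] at e11
  have g1 := mul_mem (reg_of_dvd hv ((Dvd.intro _ e8.symm).trans d2)) (reg_of_dvd hv d1)
  have g2 : n₀ ∈ nonZeroDivisors L := (IsUnit.of_mul_eq_one _ hn').mem_nonZeroDivisors
  rw [e9, mul_assoc ν, root_unique J pu p1 (x := Z * t ^ e * Φ r * r') ?_ hν ?_]
  · refine (mul_cancel_right_mem_nonZeroDivisors (mul_mem (pow_mem g1 (p - 1)) g2)).1 ?_
    rw [← mul_assoc, ← mul_pow, ← e9, mul_pow, mul_pow, one_mul]
    linear_combination (Φ (f ^ e * r) ^ (p - 1)) * e7 - (f ^ e * r) ^ (p - 1) * e11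
  · have a1 : π r = 1 := Ideal.Quotient.eq.2 r2
    have a2 : π (Φ r) = 1 := Ideal.Quotient.eq.2 (by simpa using hΦ _ r2)
    have a3 : π r' = 1 := by simpa [a1] using congrArg π hr'
    have a4 : ∀ x, π (z x) = π t ^ q := fun x => Ideal.Quotient.eq.2 (z2 x)
    have a5 : n = q * Fintype.card (ℙ (ZMod p) (Fin c → ZMod p)) + e := by
      refine Nat.eq_of_mul_eq_mul_right (Nat.pos_of_ne_zero p1) ?_
      obtain ⟨h, rfl⟩ := hq
      have b1 := Nat.one_le_pow h p hp.out.pos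
      have b2 := Nat.one_le_pow c p hp.out.pos
      rw [add_mul, mul_assoc, e3, mul_comm e, ← he, Nat.mul_sub_one (p ^ h)]
      have b3 := Nat.le_mul_of_pos_right (p ^ h) b2
      omega
    rw [← Ideal.Quotient.eq, Ideal.Quotient.eq.2 hν', a5]
    change π _ = π _
    simp only [hZ, map_mul, map_pow, map_prod, a2, a3, a4, mul_one, Finset.prod_const,
      Finset.card_univ, pow_add, pow_mul]

end Vale.Agent.P261Z.KS
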