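import Vale.Agent.P261Z.KS.Main
import Vale.Agent.P261Z.Ig.Evo

/-!
# P261, block D4: the first Igusa level from points of order `p`, generators of all lines
-/

open MvPowerSeries

namespace Vale.Agent.P261Z.KS

open Vale.Agent.P217 Vale.Agent.P251.F Ev N P261.Ig

variable {p h c : ℕ} [hp : Fact p.Prime] {K G U : Type} [Field K] [Group G] [TopologicalSpace G]
  [CommRing U] [Algebra (RR c K) U]

theorem exists_frob {S : Type*} [CommRing S] (p0 : (p : S) = 0) (h : ℕ) :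
    ∃ τ : S →+* S, ∀ x, τ x = x ^ p ^ h := by
  rcases subsingleton_or_nontrivial S with _ | _
  · exact ⟨RingHom.id S, fun _ => Subsingleton.elim _ _⟩
  · have := (CharP.charP_iff_prime_eq_zero hp.out).2 p0
    exact ⟨iterateFrobenius S p h, fun _ => rfl⟩

theorem ph_mem (A : RG p h c G K) (g : G) : ∀ r ∈ IX (Fin c) K, A.ph g r ∈ IX (Fin c) K :=
  fun r hr => by
    simpa using map_mem_pow (A.ph g) (fun i => mem_IX.2 (A.phi_X g i)) (n := 1) (by simpa using hr)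

theorem ig1_of (A : RG p h c G K) (hc : 0 < c) (hh : h ≠ 0) (p0 : (p : RR c K) = 0)
    (Φ : G → U →+* U) (hΦ : ∀ g r, Φ g (algebraMap _ U r) = algebraMap _ U (A.phi g r))
    (B : Subalgebra (RR c K) U) [Module.Finite (RR c K) B] (Ψ : G → B →+* B)
    (hΨ : ∀ g x, (Ψ g x : U) = Φ g x)
    (hv : algebraMap (RR c K) U (X ⟨0, hc⟩) ∈ nonZeroDivisors U)
    (z : Fin c → Pt U (IX (Fin c) K) (FR p h c K)) (hz : ∀ i, p • z i = 0)
    (hB : ∀ i, (z i).val ^ p ^ h ∈ B)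
    (hr : ∀ n : Fin c → ℕ, (∃ i, ¬ p ∣ n i) → (∑ i, n i • z i).val ∈ nonZeroDivisors U)
    (hg : ∀ g i, (z i).val = evO1 (IX (Fin c) K) (Φ g (z i).val) (A.ser g).val) (f : B)
    (hf : (f : U) ^ (p ^ h - 1) = algebraMap (RR c K) U (X ⟨0, hc⟩))
    (hf' : ∀ g, Φ g f = algebraMap (RR c K) U (A.t g) * f) :
    ∃ σ y, Ig1 A hc σ (JB (IX (Fin c) K) B) (algebraMap _ B) Ψ y f := by
  have := (CharP.charP_iff_prime_eq_zero hp.out).2 p0
  have q0 := pow_pos hp.out.pos h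
  obtain ⟨τ, hτ⟩ := exists_frob (show (p : U) = 0 by
    rw [← map_natCast (algebraMap (RR c K) U), p0, map_zero]) h
  have e1 : ∀ r, τ (algebraMap (RR c K) U r) = algebraMap _ U (iterateFrobenius _ p h r) :=
    fun r => by rw [hτ, iterateFrobenius_def, map_pow]
  have e2 : ∀ g, ∀ r ∈ IX (Fin c) K, A.ph g r ∈ (IX (Fin c) K).radical := fun g r hr =>
    Ideal.le_radical (ph_mem A g r hr)
  have reg : ∀ x : B, (x : U) ∈ nonZeroDivisors U → x ∈ nonZeroDivisors B := fun x hx =>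
    mem_nonZeroDivisors_of_injective (f := B.val) Subtype.val_injective hx
  let P (a : Fin c → ZMod p) := ∑ i, (a i).val • z i
  let T := Pt.map (m' := IX (Fin c) K) _ τ e1
    (fun r hr => Ideal.le_radical ((IX (Fin c) K).pow_mem_of_mem hr _ q0)) (F := FR p h c K) rfl
  have h1 : ∀ a, (T (P a)).val ∈ B := fun a => by
    change T (P a) ∈ Pt.sub _ _ B
    rw [map_sum]
    exact sum_mem fun i _ => by
      rw [map_nsmul]
      exact (Pt.sub _ _ B).nsmul_mem (show τ _ ∈ B from hτ _ ▸ hB i) _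
  have h2 : ∀ a, (⟨_, h1 a⟩ : B) ∈ JB (IX (Fin c) K) B := fun a => (isN_iff B _).1 (T (P a)).isN
  have h3 : ∀ g, ∀ x ∈ JB (IX (Fin c) K) B, Ψ g x ∈ JB (IX (Fin c) K) B := fun g x =>
    JB_map (A.ph g) (Ψ g) (fun r => Subtype.ext ((hΨ g _).trans (hΦ g r))) (e2 g)
  have h4 : ∀ x ∈ JB (IX (Fin c) K) B, ∀ s, (ev1 (JB (IX (Fin c) K) B) (algebraMap _ B) x s : U) =
      evO1 (IX (Fin c) K) (x : U) s := fun x hx s => (evO_eq B.val (fun _ : Unit => hx) s).symm
  refine ⟨iterateFrobenius _ p h, fun a => ⟨_, h1 a⟩, hh, p0, fun _ => rfl,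
    fun i => map_mem_JB _ (X_mem i), reg _ hv,
    fun g => RingHom.ext fun r => Subtype.ext ((hΨ g _).trans (hΦ g r)), h3, h2,
    fun a b => Subtype.ext ?_, fun a => Subtype.ext ?_, fun a ha => reg _ ?_,
    fun g a => Subtype.ext ?_, Subtype.ext hf, fun g => Subtype.ext ((hΨ g _).trans (hf' g))⟩
  · have : P (a + b) = P a + P b := by
      rw [← Finset.sum_add_distrib]
      exact Finset.sum_congr rfl fun i _ => by
        rw [← add_nsmul, nsmul_eq_mod_nsmul (_ + _) (hz i), Pi.add_apply, ZMod.val_add]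
    refine Eq.trans ?_ (evO_eq B.val (Fin.forall_fin_two.2 ⟨h2 a, h2 b⟩) _)
    change (T _).val = _
    rw [this, map_add, Pt.val_add]
    congr 2
    exact funext (Fin.forall_fin_two.2 ⟨rfl, rfl⟩)
  · have h5 := Pt.val_nsmul p (P a)
    rw [Finset.smul_sum, Finset.sum_eq_zero fun i _ => by rw [smul_comm, hz, nsmul_zero],
      (psi_spec (vv_FR_lt p0)).1, PowerSeries.expand_apply,
      evO1_subst1 (P a).isN
        (by rw [map_pow, PowerSeries.constantCoeff_X, zero_pow q0.ne']),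
      map_pow, evO1_X (P a).isN, ← hτ] at h5
    exact (h4 _ (h2 a) _).trans h5.symm
  · obtain ⟨i, hi⟩ := Function.ne_iff.1 ha
    exact Set.mem_of_eq_of_mem (hτ _) (pow_mem (hr _ ⟨i, fun e => hi (by
      rw [← ZMod.natCast_zmod_val (a i), (ZMod.natCast_eq_zero_iff _ _).2 e]
      rfl)⟩) _)
  · let S := (Pt.hom (((A.ser g).smul_eq_iff_isHom _ _).1 (A.law g))).comp
      (Pt.map (A.ph g) (Φ g) (hΦ g) (e2 g) (F := FR p h c K) rfl)
    have h5 : S (P a) = P a := by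
      rw [map_sum]
      exact Finset.sum_congr rfl fun i _ => by
        rw [map_nsmul, show S (z i) = z i from Pt.ext (hg g i).symm]
    have h6 : τ (Φ g (P a).val) = Ψ g ⟨_, h1 a⟩ := by
      rw [hΨ, hτ, ← map_pow, ← hτ]
      rfl
    rw [h4 _ (h3 g _ (h2 a)), ← h6, ← map_evO1 _ τ e1 ((P a).isN.map _ _ (hΦ g) (e2 g))
      (h6 ▸ (isN_iff B _).2 (h3 g _ (h2 a)))]
    exact congrArg (fun x => τ x.val) h5.symm

/-- generators of all lines -/
theorem Ig1.gen_line {n : ℕ} {k L : Type} [Field k] [CommRing L] {D : LTD p n k} {κ : k →+* K}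
    {A : RG p h c D.GG K} {hc : 0 < c} {σ : RR c K →+* RR c K} {J : Ideal L} [IsAdicComplete J L]
    {ι : RR c K →+* L} {Φ : D.GG → L →+* L} {y : (Fin c → ZMod p) → L} {f : L}
    (I : Ig1 A hc σ J ι Φ y f) (hT : IsT D κ A) (hn : h + c = n) {j : D.GG → (RR c K)ˣ}
    (hj : ∀ g, (j g : RR c K) = jac A g) {l : D.GG → RR c K} {a b : ℤ} {i : ℕ}
    (hl : ∀ g, l g = ((A.t g ^ a * j g ^ b : (RR c K)ˣ) : RR c K) *
      C (κ (g.cf 1 ^ (i * ((p ^ n - 1) / (p - 1)))))) : Gen ι Φ (X ⟨0, hc⟩) l := by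
  have h1 := (I.gen_norm hT hn (m := (p ^ n - 1) / (p - 1)) (by
    rw [Nat.div_mul_cancel (Nat.sub_one_dvd_pow_sub_one p n),
      Nat.sub_add_cancel (pow_pos hp.out.pos n)])).pow i
  have h2 := ((I.gen_t.zpow a).mul (Gen.zpow (u := j) (funext hj ▸ I.gen_jac) b)).mul h1
  rwa [show l = _ from funext fun g => by
    rw [hl, Units.val_mul, mul_comm i, pow_mul, map_pow, map_pow]]

/-- the same over any stable subalgebra which contains the points -/
theorem gen_line_of {n : ℕ} {k : Type} [Field k] {D : LTD p n k} {κ : k →+* K}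
    (A : RG p h c D.GG K) (hT : IsT D κ A) (hn : h + c = n) (hc : 0 < c) (hh : h ≠ 0)
    (p0 : (p : RR c K) = 0) (Φ : D.GG → U →+* U)
    (hΦ : ∀ g r, Φ g (algebraMap _ U r) = algebraMap _ U (A.phi g r))
    (B : Subalgebra (RR c K) U) (Ψ : D.GG → B →+* B) (hΨ : ∀ g x, (Ψ g x : U) = Φ g x)
    (hv : algebraMap (RR c K) U (X ⟨0, hc⟩) ∈ nonZeroDivisors U)
    (z : Fin c → Pt U (IX (Fin c) K) (FR p h c K)) (hz : ∀ i, p • z i = 0)
    (hB : ∀ i, (z i).val ^ p ^ h ∈ B)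
    (hr : ∀ n : Fin c → ℕ, (∃ i, ¬ p ∣ n i) → (∑ i, n i • z i).val ∈ nonZeroDivisors U)
    (hg : ∀ g i, (z i).val = evO1 (IX (Fin c) K) (Φ g (z i).val) (A.ser g).val) {f : U}
    (hfB : f ∈ B) (hf : f ^ (p ^ h - 1) = algebraMap (RR c K) U (X ⟨0, hc⟩))
    (hf' : ∀ g, Φ g f = algebraMap (RR c K) U (A.t g) * f) {j : D.GG → (RR c K)ˣ}
    (hj : ∀ g, (j g : RR c K) = jac A g) {l : D.GG → RR c K} {a b : ℤ} {i : ℕ}
    (hl : ∀ g, l g = ((A.t g ^ a * j g ^ b : (RR c K)ˣ) : RR c K) *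
      C (κ (g.cf 1 ^ (i * ((p ^ n - 1) / (p - 1)))))) :
    Gen (algebraMap _ B) Ψ (X ⟨0, hc⟩) l := by
  have q0 := pow_pos hp.out.pos h
  obtain ⟨σ, hσ⟩ := exists_frob p0 h
  obtain ⟨τ, hτ⟩ := exists_frob (show (p : U) = 0 by
    rw [← map_natCast (algebraMap (RR c K) U), p0, map_zero]) h
  let w : Option (Fin c) → U := fun o => o.elim f fun i => (z i).val ^ p ^ h
  let B₀ := Algebra.adjoin (RR c K) (Set.range w)
  have hw : ∀ o, w o ∈ B₀ := fun o => Algebra.subset_adjoin ⟨o, rfl⟩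
  have : Module.Finite (RR c K) B₀ := finite_adjoin (Option.forall.2 ⟨IsIntegral.of_pow
    (Nat.sub_pos_of_lt (Nat.one_lt_pow hh hp.out.one_lt)) (hf ▸ isIntegral_algebraMap),
    fun i => (z i).isN.int.pow _⟩)
  have h1 : B₀ ≤ B := Algebra.adjoin_le (Set.range_subset_iff.2 (Option.forall.2 ⟨hfB, hB⟩))
  have h2 : ∀ g, ∀ x : B₀, Φ g x ∈ B₀ := fun g ⟨x, hx⟩ => by
    induction hx using Algebra.adjoin_induction with
    | mem x hx =>
      obtain ⟨_ | i, rfl⟩ := hx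
      · exact (hf' g).symm ▸ mul_mem (B₀.algebraMap_mem _) (hw none)
      · have h3 := (z i).isN.map _ _ (hΦ g) fun r hr => Ideal.le_radical (ph_mem A g r hr)
        have h4 := evO1_subst1 h3 (A.ser g).cc (A.ser g)⁻¹.val
        rw [InvSeries.subst_inv_val, evO1_X h3, ← hg] at h4
        change Φ g (_ ^ _) ∈ B₀
        rw [map_pow, h4, ← hτ, map_evO1 σ τ (fun r => by rw [hτ, hσ, map_pow]) (z i).isN
          (hτ _ ▸ (z i).isN.pow q0), hτ]
        exact evO1_mem _ (hw (some i)) _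
    | algebraMap r => exact (hΦ g r).symm ▸ B₀.algebraMap_mem _
    | add a b _ _ ha hb => exact (map_add (Φ g) a b).symm ▸ add_mem ha hb
    | mul a b _ _ ha hb => exact (map_mul (Φ g) a b).symm ▸ mul_mem ha hb
  obtain ⟨_, y, I⟩ := ig1_of A hc hh p0 Φ hΦ B₀
    (fun g => ((Φ g).comp B₀.val.toRingHom).codRestrict _ (h2 g)) (fun _ _ => rfl) hv z hz
    (fun i => hw (some i)) hr hg ⟨f, hw none⟩ hf hf'
  exact (I.gen_line hT hn hj hl).map (Subalgebra.inclusion h1).toRingHom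
    fun g x => Subtype.ext (hΨ g _)

end Vale.Agent.P261Z.KS
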