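import Vale.Agent.P261Z.KS.A
import Vale.Agent.P261Z.N.RG

/-!
# P261, block N5: the series `psi` with `[p] x = psi (x ^ q)`
-/

open MvPowerSeries

namespace Vale.Agent.P261Z.KS

open Vale.Agent.P217 Vale.Agent.P251.F Vale.Agent.P257.H80 Ev N

section Psi

variable {R S : Type*} [CommRing R] [CommRing S] (p h : ℕ)

/-- `[p] x = psi (x ^ p ^ h)` -/
noncomputable def psi (F : Law R) : PowerSeries R :=
  PowerSeries.mk fun i => PowerSeries.coeff (p ^ h * i) (multSeries F.toFG p)

theorem coeff_psi (F : Law R) (i : ℕ) : PowerSeries.coeff i (psi p h F) =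
    PowerSeries.coeff (p ^ h * i) (multSeries F.toFG p) := PowerSeries.coeff_mk _ _

theorem coeff_psi_pow (F : Law R) (i : ℕ) :
    PowerSeries.coeff (p ^ i) (psi p h F) = vv p (h + i) F := by
  rw [coeff_psi, ← pow_add, vv]

theorem psi_zero (F : Law R) : PowerSeries.constantCoeff (psi p h F) = 0 := by
  rw [← PowerSeries.coeff_zero_eq_constantCoeff_apply, coeff_psi, mul_zero,
    PowerSeries.coeff_zero_eq_constantCoeff_apply, constantCoeff_multSeries]

theorem psi_map (φ : R →+* S) (F : Law R) : (psi p h F).map φ = psi p h (F.map φ) := by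
  ext i
  rw [PowerSeries.coeff_map, coeff_psi, coeff_psi, Law.map_toFG, ← map_multSeries,
    PowerSeries.coeff_map]

variable {p h} [hp : Fact p.Prime]

theorem psi_mem (F : Law R) {c i : ℕ} (hi : i < p ^ c) :
    PowerSeries.coeff i (psi p h F) ∈ Ih p (h + c) F := by
  rcases i.eq_zero_or_pos with rfl | h0
  · rw [PowerSeries.coeff_zero_eq_constantCoeff_apply, psi_zero]
    exact zero_mem _
  · refine (IF_le_iff p _ _ _).2 (fun j hj => vv_mem_Ih hj F)
      (coeff_psi p h F i ▸ coeff_multSeries_mem p F.toFG (h + c) _ fun hd => ?_)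
    rw [pow_add, Nat.mul_dvd_mul_iff_left (pow_pos hp.out.pos h)] at hd
    exact (Nat.le_of_dvd h0 hd).not_gt hi

variable [CharP R p] {F : Law R} (hv : ∀ i < h, vv p i F = 0)
include hv

theorem psi_spec : multSeries F.toFG p =
    PowerSeries.expand (p ^ h) (pow_ne_zero h hp.out.ne_zero) (psi p h F) ∧
      IsHom (F.map (iterateFrobenius R p h)).toFG F.toFG (psi p h F) := by
  obtain ⟨V, h1, h2⟩ := exists_V_of_vanish p (isHom_multSeries F.toFG p) h hv
  rw [← PowerSeries.expand_apply _ (pow_ne_zero h hp.out.ne_zero)] at h1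
  rw [show psi p h F = V from PowerSeries.ext fun i => by
    rw [coeff_psi, h1, PowerSeries.coeff_expand_mul]]
  exact ⟨h1, h2⟩

theorem psi_eqv (f : InvSeries R) :
    ((psi p h (f • F)).subst (f.val.map (iterateFrobenius R p h)) : PowerSeries R) =
      f.val.subst (psi p h F) := by
  have q0 := pow_ne_zero h hp.out.ne_zero
  have h1 := smul_multSeries f F p
  rw [(psi_spec hv).1, (psi_spec (vv_smul_of_zero p h F f hv).1).1, PowerSeries.expand_apply _ q0
    (psi p h (f • F)), PowerSeries.subst_comp_subst_apply (PowerSeries.HasSubst.X_pow q0) f.hs,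
    PowerSeries.subst_pow f.hs, PowerSeries.subst_X f.hs] at h1
  refine HT_expand_injective q0 ?_
  rw [PowerSeries.expand_subst _ _ (f := f.val.map _) (InvSeries.map _ f).hs,
    PowerSeries.expand_subst _ _ (hasSubst_of_cc (psi_zero p h F))]
  refine (congrArg (fun a => PowerSeries.subst a (psi p h (f • F))) ?_).trans h1.symm
  exact (map_expand _ q0 _ _).symm.trans (map_iterateFrobenius_expand p hp.out.ne_zero f.val h)

end Psi

variable {p h c : ℕ} [hp : Fact p.Prime] {K : Type} [Field K]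

theorem FR_eq : FR p h c K =
    (haz p).map (MvPolynomial.eval₂Hom (Int.castRingHom _) (par (h + c) (exh h X))) := rfl

theorem par_add (hh : h ≠ 0) (l : Fin c) :
    par (h + c) (exh h (X : Fin c → RR c K)) (h + l - 1) = X l := by
  rw [par, Nat.sub_add_cancel (by omega), if_pos (by omega), exh_add]

theorem par_lt {j : ℕ} (hj : j + 1 < h) :
    par (h + c) (exh h (X : Fin c → RR c K)) j = 0 := by
  rw [par, if_pos (by omega), exh_lt _ hj]

theorem Ih_FR (h0 : (p : RR c K) = 0) (hh : h ≠ 0) : Ih p (h + c) (FR p h c K) = IX (Fin c) K := by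
  rw [FR_eq, show h + c = h + c - 1 + 1 by omega, Ih_haz, Nat.sub_add_cancel (by omega)]
  refine le_antisymm (Ideal.span_le.2 ?_) (Ideal.span_le.2 ?_)
  · rintro _ (rfl | ⟨j, hj, rfl⟩)
    · exact h0 ▸ zero_mem _
    · simp only [MvPolynomial.eval₂Hom_X', par, if_pos (show j + 1 < h + c by
        have : j < _ := hj
        omega), exh]
      split_ifs
      exacts [X_mem _, zero_mem _]
  · rintro _ ⟨l, rfl⟩
    refine Set.mem_of_eq_of_mem ?_ (mem_HI p (j := h + l - 1) (by omega))
    rw [MvPolynomial.eval₂Hom_X', par_add hh]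

theorem vv_FR_lt (h0 : (p : RR c K) = 0) : ∀ i < h, vv p i (FR p h c K) = 0
  | 0, _ => by rw [vv_zero, h0]
  | i + 1, hi => by
    rw [FR_eq, vv_haz_of_zero p h0 fun j hj => by
      rw [MvPolynomial.eval₂Hom_X', par_lt (by omega)], MvPolynomial.eval₂Hom_X', par_lt hi]

theorem psi_one (h0 : (p : RR c K) = 0) (hh : h ≠ 0) (hc : 0 < c) :
    PowerSeries.coeff 1 (psi p h (FR p h c K)) = X ⟨0, hc⟩ := by
  rw [← par_add hh, ← pow_zero p, coeff_psi_pow, FR_eq, show h + 0 = h - 1 + 1 by omega,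
    vv_haz_of_zero p h0 fun j hj => by
      rw [MvPolynomial.eval₂Hom_X', par_lt (by omega)], MvPolynomial.eval₂Hom_X']
  rfl

theorem psi_top (h0 : (p : RR c K) = 0) (hh : h ≠ 0) :
    PowerSeries.coeff (p ^ c) (psi p h (FR p h c K)) - 1 ∈ IX (Fin c) K := by
  have h1 := vv_haz_sub_mem p
    (MvPolynomial.eval₂Hom (Int.castRingHom (RR c K)) (par (h + c) (exh h X))) (h + c - 1)
  rwa [← Ih_haz, Nat.sub_add_cancel (by omega), ← FR_eq, Ih_FR h0 hh, MvPolynomial.eval₂Hom_X', par,
    Nat.sub_add_cancel (by omega), if_neg (lt_irrefl _), if_pos rfl, ← coeff_psi_pow] at h1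

theorem psi_jac (h0 : (p : RR c K) = 0) (hh : h ≠ 0) : IsUnit (Matrix.of fun i j : Fin c =>
    pderiv K j (PowerSeries.coeff (p ^ (i : ℕ)) (psi p h (FR p h c K)))).det := by
  classical
  have h1 : ∀ l, ∃ B : Fin c → RR c K, ∑ i, B i * vv p (h + i) (FR p h c K) = X l := fun l => by
    refine Ideal.mem_span_range_iff_exists_fun.1 (Ideal.span_le.2 ?_ ((Ih_FR h0 hh).ge (X_mem l)))
    rintro _ ⟨i, hi, rfl⟩
    rcases lt_or_ge i h with h2 | h2
    · rw [vv_FR_lt h0 i h2]
      exact zero_mem _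
    · exact Ideal.subset_span ⟨⟨i - h, by omega⟩, by simp only [Nat.add_sub_cancel' h2]⟩
  choose B hB using h1
  refine unit_of (IX (Fin c) K) ?_
  rw [RingHom.map_det]
  refine Matrix.isUnit_det_of_left_inverse (B := (Ideal.Quotient.mk _).mapMatrix (Matrix.of B)) ?_
  rw [← map_mul, ← map_one (Ideal.Quotient.mk (IX (Fin c) K)).mapMatrix]
  refine Matrix.ext fun l j => Ideal.Quotient.eq.2 ?_
  have h2 := congrArg (pderiv K j) (hB l)
  rw [pderiv_X, Pi.single_apply, ← Matrix.one_apply] at h2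
  simp only [← h2, map_sum, Derivation.leibniz, Matrix.mul_apply, Matrix.of_apply, coeff_psi_pow,
    ← Finset.sum_sub_distrib, smul_eq_mul, sub_add_cancel_left]
  exact sum_mem fun i _ => neg_mem
    (Ideal.mul_mem_right _ _ ((Ih_FR h0 hh).le (vv_mem_Ih (by omega) _)))

theorem chain (φ : RR c K →ₐ[K] RR c K) (h : ∀ i, constantCoeff (φ (X i)) = 0) (r : RR c K)
    (j : Fin c) : pderiv K j (φ r) = ∑ i, φ (pderiv K i r) * pderiv K j (φ (X i)) := by
  have hs := hasSubst_of_constantCoeff_zero h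
  have e : ∀ r, φ r = subst (fun i => φ (X i)) r := fun r => by
    rw [← substAlgHom_apply hs]
    exact RingHom.congr_fun (hom_ext (IX (Fin c) K) (E := φ) (E' := substAlgHom (R := K) hs)
      (fun a => (φ.commutes a).trans ((substAlgHom hs).commutes a).symm)
      (fun i => (substAlgHom_X hs i).symm) fun i => mem_IX.2 (h i)) r
  rw [e r, HT_pderiv_subst _ h]
  simp only [← e]

end Vale.Agent.P261Z.KS
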