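import Vale.Agent.P261Z.KS.C
import Vale.Agent.P261Z.KS.Gen
import Vale.Agent.P261Z.KS.Psi

/-!
# P261, blocks N5 and D4: invariant generators on the first Igusa level
-/

open MvPowerSeries

namespace Vale.Agent.P261Z.KS

open Vale.Agent.P217 Vale.Agent.P251.F Ev N

variable {p h c : ℕ} [hp : Fact p.Prime] {K G L : Type} [Field K] [Group G] [TopologicalSpace G]
  [CommRing L]

/-- the data of the first Igusa level: `y` are the points of the kernel of `psi` on the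
Frobenius twist of the law, `f` is the leading coefficient of the trivialization -/
structure Ig1 (A : RG p h c G K) (hc : 0 < c) (σ : RR c K →+* RR c K) (J : Ideal L)
    [IsAdicComplete J L] (ι : RR c K →+* L) (Φ : G → L →+* L) (y : (Fin c → ZMod p) → L)
    (f : L) : Prop where
  hh : h ≠ 0
  p0 : (p : RR c K) = 0
  σ_eq : ∀ x, σ x = x ^ p ^ h
  ιX : ∀ i, ι (X i) ∈ J
  reg : ι (X ⟨0, hc⟩) ∈ nonZeroDivisors L
  comm : ∀ g, (Φ g).comp ι = ι.comp (A.ph g)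
  ΦJ : ∀ g, ∀ x ∈ J, Φ g x ∈ J
  mem : ∀ a, y a ∈ J
  add : ∀ a b, y (a + b) = ev J ι ![y a, y b] ((FR p h c K).map σ).ps
  ker : ∀ a, ev1 J ι (y a) (psi p h (FR p h c K)) = 0
  yreg : ∀ a, a ≠ 0 → y a ∈ nonZeroDivisors L
  Φy : ∀ g a, y a = ev1 J ι (Φ g (y a)) ((A.ser g).val.map σ)
  f_pow : f ^ (p ^ h - 1) = ι (X ⟨0, hc⟩)
  Φf : ∀ g, Φ g f = ι (A.t g) * f

/-- the Jacobian determinant -/
noncomputable def jac (A : RG p h c G K) (g : G) : RR c K :=
  (Matrix.of fun i j : Fin c => pderiv K j (A.phi g (X i))).det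

namespace Ig1

variable {A : RG p h c G K} {hc : 0 < c} {σ : RR c K →+* RR c K} {J : Ideal L}
  [IsAdicComplete J L] {ι : RR c K →+* L} {Φ : G → L →+* L} {y : (Fin c → ZMod p) → L} {f : L}
  (I : Ig1 A hc σ J ι Φ y f)
include I

theorem ι_mem : ∀ r ∈ IX (Fin c) K, ι r ∈ J := fun r hr => by
  simpa using map_mem_pow ι I.ιX (n := 1) (by simpa using hr)

theorem pts : Pts J ι ((FR p h c K).map σ).toFG (psi p h (FR p h c K)) y := by
  refine ⟨I.mem, I.add, I.ker, fun a ha => ⟨1, ?_⟩⟩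
  obtain ⟨g, h1, h2⟩ := ser_decomp (psi_zero p h (FR p h c K))
  obtain ⟨g', h3⟩ := PowerSeries.X_dvd_iff.2
    (show PowerSeries.constantCoeff (g - PowerSeries.C (PowerSeries.constantCoeff g)) = 0 by simp)
  have h4 := I.ker a
  have h5 := congrArg (ev1 J ι (y a)) h3
  rw [h1, map_mul, ev1_X ι (I.mem a)] at h4
  rw [map_sub, map_mul, ev1_X ι (I.mem a), ev1_C, h2, (I.yreg a ha).1 _ h4] at h5
  exact ⟨-ev1 J ι (y a) g', by linear_combination -h5⟩

theorem gen_t : Gen ι Φ (X ⟨0, hc⟩) fun g => A.t g :=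
  Gen.of_root (N := 1) (by
    rw [pow_one, ← I.f_pow]
    exact dvd_pow_self f (Nat.sub_ne_zero_of_lt (Nat.one_lt_pow I.hh hp.out.one_lt))) I.Φf

theorem gen_jac : Gen ι Φ (X ⟨0, hc⟩) (jac A) := by
  have := (CharP.charP_iff_prime_eq_zero hp.out).2 I.p0
  obtain rfl : σ = iterateFrobenius _ p h := RingHom.ext I.σ_eq
  have hv := vv_FR_lt (h := h) I.p0
  obtain ⟨N, hN⟩ := ks_unit I.pts (psi_spec hv).2 (pderiv K) (fun _ => cd_frob _ I.hh _)
    (IX (Fin c) K) (fun i hi => (Ih_FR I.p0 I.hh).le (psi_mem _ hi))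
    (unit_of (IX (Fin c) K) (by rw [Ideal.Quotient.eq.2 (psi_top I.p0 I.hh)]; simp))
    (psi_jac I.p0 I.hh)
  rw [psi_one I.p0 I.hh hc] at hN
  refine Gen.of_mul ⟨_, 1, ⟨N, (mul_one _).dvd.trans hN⟩, fun g => ?_⟩
    (I.gen_t.pow c) fun g => (A.t g).isUnit.pow c
  have e := psi_eqv (F := (FR p h c K).map (A.ph g)) (h := h)
    (fun i hi => by rw [vv_map, hv i hi, map_zero]) (A.ser g)
  rw [A.law g, ← psi_map] at e
  have h1 := fun i j => ks_eqv (I.comm g) (A.ser g).cc (InvSeries.map _ (A.ser g)).cc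
    (psi_zero p h _) e (pderiv K) (fun _ => cd_frob _ I.hh _)
    (Matrix.of fun i j => pderiv K j (A.phi g (X i))) (chain (A.phi g) (A.phi_X g))
    (I.mem (Pi.single i 1)) (I.ΦJ g _ (I.mem _)) (I.ker _) (I.Φy g _) j
  rw [map_one, mul_one, mul_one, map_mul, map_pow, jac, RingHom.map_det, RingHom.map_det,
    mul_assoc, mul_comm (Matrix.det _), ← Matrix.det_mul]
  refine Eq.trans ?_ ((Matrix.det_smul _ _).trans (by rw [Fintype.card_fin]))
  exact congrArg Matrix.det (Matrix.ext h1)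

theorem gen_nu {ν : G → RR c K} {n : ℕ} (hn : n * (p - 1) + 1 = p ^ (h + c))
    (h1 : ∀ g, ν g ^ (p - 1) = 1) (h2 : ∀ g, ν g - A.t g ^ n ∈ IX (Fin c) K) :
    Gen ι Φ (X ⟨0, hc⟩) ν := by
  have hv := psi_one I.p0 I.hh hc
  obtain ⟨a, b, h3, h4⟩ := I.pts.norm (by rw [← map_natCast ι, I.p0, map_zero]) (IX (Fin c) K)
    I.ι_mem (psi_zero p h _) (fun i hi => (Ih_FR I.p0 I.hh).le (psi_mem _ hi))
    (psi_top I.p0 I.hh) (hv ▸ I.reg) ⟨h, rfl⟩ (hv ▸ I.f_pow)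
  refine ⟨a, b, hv ▸ h3, fun g => h4 _ (ι (A.t g)) _ n (I.ΦJ g) (fun x => ?_) (I.Φf g)
    (by rw [← map_pow, h1, map_one]) (by rw [hn, pow_add])
    (by rw [← map_pow, ← map_sub]; exact I.ι_mem _ (h2 g))⟩
  obtain ⟨u, h5, h6⟩ := ser_decomp (InvSeries.map σ (A.ser g)).cc
  have h7 := I.ΦJ g _ (I.mem x)
  refine ⟨ev1 J ι (Φ g (y x)) u, (I.Φy g x).trans ?_, ?_⟩
  · rw [← InvSeries.map_val, h5, map_mul, ev1_X ι h7]
  · have h8 := ev1_sub_const ι h7 u
    rwa [h6, InvSeries.map_val, PowerSeries.coeff_map, I.σ_eq, map_pow] at h8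

end Ig1

/-- the norm character -/
theorem Ig1.gen_norm {n : ℕ} {k : Type} [Field k] {D : LTD p n k} {κ : k →+* K}
    {A : RG p h c D.GG K} {hc : 0 < c} {σ : RR c K →+* RR c K} {J : Ideal L} [IsAdicComplete J L]
    {ι : RR c K →+* L} {Φ : D.GG → L →+* L} {y : (Fin c → ZMod p) → L} {f : L}
    (I : Ig1 A hc σ J ι Φ y f) (hT : IsT D κ A) (hn : h + c = n) {m : ℕ}
    (hm : m * (p - 1) + 1 = p ^ n) : Gen ι Φ (X ⟨0, hc⟩) fun g => C (κ (g.cf 1 ^ m)) := by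
  refine I.gen_nu (hn ▸ hm) (fun g => ?_) fun g => mem_IX.2 ?_
  · have := Nat.finite_of_card_ne_zero (D.card ▸ pow_ne_zero n hp.out.ne_zero)
    have := Fintype.ofFinite k
    rw [← map_pow, ← map_pow, ← pow_mul, show m * (p - 1) = Fintype.card k - 1 by
      rw [← Nat.card_eq_fintype_card, D.card, ← hm, Nat.add_sub_cancel],
      FiniteField.pow_card_sub_one_eq_one _ g.cf_one_isUnit.ne_zero, map_one, map_one]
  · rw [map_sub, constantCoeff_C, map_pow, map_pow, A.t_val, hT, sub_self]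

end Vale.Agent.P261Z.KS
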